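import Mathlib.Algebra.BigOperators.Fin
import Mathlib.Algebra.BigOperators.Ring.Finset
import Mathlib.Algebra.Order.BigOperators.Group.Finset
import Mathlib.Data.Fintype.BigOperators
import Mathlib.Data.ZMod.Basic
import Mathlib.Tactic

/-!
# P039: the sign rule for alternating cycles and the function `u`
-/

set_option linter.unusedSectionVars false

namespace Vale.Agent.P039.H34

open Finset

variable {B W : Type} [Fintype B] [Fintype W] [DecidableEq B] [DecidableEq W]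

/-- boundary of a function on the white triangles -/
def dd (e : Fin 3 → B ≃ W) (n : W → ℤ) (b : B) (j : Fin 3) : ℤ :=
  n (e (j + 1) b) - n (e (j + 2) b)

/-- the circulation of `u` around the hexagon of `w` -/
def curl (e : Fin 3 → B ≃ W) (u : B → Fin 3 → ℤ) (w : W) : ℤ :=
  ∑ i : Fin 3, (u ((e i).symm w) (i + 2) - u ((e i).symm w) (i + 1))

theorem stokes (e : Fin 3 → B ≃ W) (u : B → Fin 3 → ℤ) (n : W → ℤ) :
    ∑ b, ∑ j, u b j * dd e n b j = ∑ w, n w * curl e u w := by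
  have h1 : ∀ i : Fin 3, ∀ k : Fin 3, ∑ w, n w * u ((e i).symm w) k =
      ∑ b, n (e i b) * u b k := by
    intro i k
    rw [← (e i).sum_comp]
    simp
  have h2 : ∑ w, n w * curl e u w =
      ∑ i : Fin 3, (∑ b, n (e i b) * u b (i + 2) - ∑ b, n (e i b) * u b (i + 1)) := by
    simp only [curl, Finset.mul_sum, mul_sub]
    rw [Finset.sum_comm]
    refine Finset.sum_congr rfl fun i _ => ?_
    rw [Finset.sum_sub_distrib, h1, h1]
  rw [h2]
  simp only [dd, Fin.sum_univ_three]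
  have e1 : (0 : Fin 3) + 1 = 1 := rfl
  have e2 : (0 : Fin 3) + 2 = 2 := rfl
  have e3 : (1 : Fin 3) + 1 = 2 := rfl
  have e4 : (1 : Fin 3) + 2 = 0 := rfl
  have e5 : (2 : Fin 3) + 1 = 0 := rfl
  have e6 : (2 : Fin 3) + 2 = 1 := rfl
  simp only [e1, e2, e3, e4, e5, e6]
  simp only [← Finset.sum_sub_distrib, ← Finset.sum_add_distrib]
  refine Finset.sum_congr rfl fun b _ => ?_
  ring

/-- the curl of the indicator of the corner `(b, c)` -/
theorem curl_single (e : Fin 3 → B ≃ W) (b : B) (c : Fin 3) (w : W) :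
    curl e (fun x j => if x = b ∧ j = c then 1 else 0) w =
      (if e (c + 1) b = w then 1 else 0) - (if e (c + 2) b = w then 1 else 0) := by
  have key : ∀ i : Fin 3, ((e i).symm w = b) = (e i b = w) := by
    intro i
    rw [Equiv.symm_apply_eq]
    exact propext eq_comm
  simp only [curl, key, Fin.sum_univ_three]
  have e1 : (0 : Fin 3) + 1 = 1 := rfl
  have e2 : (0 : Fin 3) + 2 = 2 := rfl
  have e3 : (1 : Fin 3) + 1 = 2 := rfl
  have e4 : (1 : Fin 3) + 2 = 0 := rfl
  have e5 : (2 : Fin 3) + 1 = 0 := rfl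
  have e6 : (2 : Fin 3) + 2 = 1 := rfl
  simp only [e1, e2, e3, e4, e5, e6]
  have hc : c = 0 ∨ c = 1 ∨ c = 2 := by revert c; decide
  rcases hc with rfl | rfl | rfl <;> simp [e1, e2, e3, e4, e5, e6]
  all_goals ring

theorem curl_add (e : Fin 3 → B ≃ W) (u v : B → Fin 3 → ℤ) (w : W) :
    curl e (fun x j => u x j + v x j) w = curl e u w + curl e v w := by
  simp only [curl, ← Finset.sum_add_distrib]
  exact Finset.sum_congr rfl fun i _ => by ring

theorem curl_neg (e : Fin 3 → B ≃ W) (u : B → Fin 3 → ℤ) (w : W) :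
    curl e (fun x j => - u x j) w = - curl e u w := by
  simp only [curl, ← Finset.sum_neg_distrib]
  exact Finset.sum_congr rfl fun i _ => by ring

theorem curl_sum {ι : Type} (e : Fin 3 → B ≃ W) (s : Finset ι) (u : ι → B → Fin 3 → ℤ) (w : W) :
    curl e (fun x j => ∑ i ∈ s, u i x j) w = ∑ i ∈ s, curl e (u i) w := by
  simp only [curl, ← Finset.sum_sub_distrib]
  rw [Finset.sum_comm]

/-- the difference of the indicators of two white triangles is a curl -/
theorem exists_diff (e : Fin 3 → B ≃ W) (w w' : W)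
    (h : Relation.EqvGen (fun x y : W => ∃ b i j, e i b = x ∧ e j b = y) w w') :
    ∃ u : B → Fin 3 → ℤ, ∀ x, curl e u x =
      (if w = x then 1 else 0) - (if w' = x then 1 else 0) := by
  induction h with
  | rel x y h =>
    obtain ⟨b, i, j, rfl, rfl⟩ := h
    have hij : i = j ∨ (∃ c : Fin 3, i = c + 1 ∧ j = c + 2) ∨
        (∃ c : Fin 3, i = c + 2 ∧ j = c + 1) := by
      revert i j; decide
    rcases hij with rfl | ⟨c, rfl, rfl⟩ | ⟨c, rfl, rfl⟩
    · exact ⟨fun _ _ => 0, fun x => by simp [curl]⟩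
    · exact ⟨_, fun x => curl_single e b c x⟩
    · refine ⟨fun x j => - (if x = b ∧ j = c then 1 else 0), fun x => ?_⟩
      rw [curl_neg, curl_single]
      ring
  | refl x => exact ⟨fun _ _ => 0, fun x => by simp [curl]⟩
  | symm x y _ ih =>
    obtain ⟨u, hu⟩ := ih
    refine ⟨fun x j => - u x j, fun x => ?_⟩
    rw [curl_neg, hu]
    ring
  | trans x y z _ _ ih1 ih2 =>
    obtain ⟨u, hu⟩ := ih1
    obtain ⟨v, hv⟩ := ih2
    refine ⟨fun x j => u x j + v x j, fun x => ?_⟩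
    rw [curl_add, hu, hv]
    ring

/-- **existence of `u`**: circulation one around every white triangle but one -/
theorem exists_u (e : Fin 3 → B ≃ W) (w0 : W)
    (hc : ∀ w w' : W, Relation.EqvGen (fun x y : W => ∃ b i j, e i b = x ∧ e j b = y) w w') :
    ∃ u : B → Fin 3 → ℤ, ∀ w, w ≠ w0 → curl e u w = 1 := by
  choose v hv using fun w : W => exists_diff e w w0 (hc w w0)
  refine ⟨fun x j => ∑ w, v w x j, fun w hw => ?_⟩
  rw [curl_sum]
  simp only [hv]
  rw [Finset.sum_sub_distrib]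
  simp [Ne.symm hw]

/-- **Stokes** for an alternating cycle -/
theorem circ (e : Fin 3 → B ≃ W) (u : B → Fin 3 → ℤ) (w0 : W) (κ : ℤ)
    (hu : ∀ w, w ≠ w0 → curl e u w = κ) (n : W → ℤ) (h0 : n w0 = 0)
    (f g : B → Fin 3) (C : Finset B)
    (hn : ∀ b j, dd e n b j =
      if b ∈ C then (if j = f b then 1 else 0) - (if j = g b then 1 else 0) else 0) :
    ∑ b ∈ C, (u b (f b) - u b (g b)) = κ * ∑ w, n w := by
  have h1 := stokes e u n
  have h2 : ∑ w, n w * curl e u w = κ * ∑ w, n w := by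
    rw [Finset.mul_sum]
    refine Finset.sum_congr rfl fun w _ => ?_
    by_cases hw : w = w0
    · rw [hw, h0]; ring
    · rw [hu w hw]; ring
  rw [← h2, ← h1]
  have h3 : ∀ b, ∑ j, u b j * dd e n b j = if b ∈ C then u b (f b) - u b (g b) else 0 := by
    intro b
    simp only [hn]
    by_cases hb : b ∈ C
    · simp only [hb, if_true, mul_sub, Finset.sum_sub_distrib, mul_ite, mul_one, mul_zero]
      simp
    · simp [hb]
  simp only [h3]
  rw [Finset.sum_ite_mem]
  simp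

/-- the sign of a pair of different classes -/
def eps (x : Fin 3) : ℤ := if x = 1 then 1 else if x = 2 then -1 else 0

theorem fin3 (j : Fin 3) : j = 0 ∨ j = 1 ∨ j = 2 := by revert j; decide

theorem fin3_pair (x y : Fin 3) (h : x ≠ y) :
    (x = 0 ∧ y = 1) ∨ (x = 0 ∧ y = 2) ∨ (x = 1 ∧ y = 0) ∨ (x = 1 ∧ y = 2) ∨
      (x = 2 ∧ y = 0) ∨ (x = 2 ∧ y = 1) := by
  revert x y; decide

theorem eps_aux (x y : Fin 3) (hne : x ≠ y) (m : Fin 3 → ℤ) (s : ℤ) (hs : s = 1 ∨ s = -1)
    (h2 : ∀ i, m i = 0 ∨ m i = s)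
    (hd : ∀ j : Fin 3, m (j + 1) - m (j + 2) =
      (if j = x then 1 else 0) - (if j = y then 1 else 0)) :
    eps (y - x) = if (∃ j, j ≠ x ∧ j ≠ y ∧ m (j + 1) ≠ 0) then s else - s := by
  have n0 := h2 0
  have n1 := h2 1
  have n2 := h2 2
  have d0 := hd 0
  have d1 := hd 1
  have d2 := hd 2
  have e1 : (0 : Fin 3) + 1 = 1 := rfl
  have e2 : (0 : Fin 3) + 2 = 2 := rfl
  have e3 : (1 : Fin 3) + 1 = 2 := rfl
  have e4 : (1 : Fin 3) + 2 = 0 := rfl
  have e5 : (2 : Fin 3) + 1 = 0 := rfl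
  have e6 : (2 : Fin 3) + 2 = 1 := rfl
  rw [e1, e2] at d0
  rw [e3, e4] at d1
  rw [e5, e6] at d2
  have hex : ∀ P : Fin 3 → Prop, (∃ j, P j) ↔ (P 0 ∨ P 1 ∨ P 2) := by
    intro P
    constructor
    · rintro ⟨j, hj⟩
      rcases fin3 j with rfl | rfl | rfl
      · exact Or.inl hj
      · exact Or.inr (Or.inl hj)
      · exact Or.inr (Or.inr hj)
    · rintro (h | h | h)
      · exact ⟨0, h⟩
      · exact ⟨1, h⟩
      · exact ⟨2, h⟩
  rw [if_congr (hex _) rfl rfl, e1, e3, e5]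
  have hxy := fin3_pair x y hne
  have q1 : (1 : Fin 3) - 0 = 1 := rfl
  have q2 : (2 : Fin 3) - 0 = 2 := rfl
  have q3 : (0 : Fin 3) - 1 = 2 := rfl
  have q4 : (2 : Fin 3) - 1 = 1 := rfl
  have q5 : (0 : Fin 3) - 2 = 1 := rfl
  have q6 : (1 : Fin 3) - 2 = 2 := rfl
  rcases hxy with ⟨rfl, rfl⟩ | ⟨rfl, rfl⟩ | ⟨rfl, rfl⟩ | ⟨rfl, rfl⟩ | ⟨rfl, rfl⟩ | ⟨rfl, rfl⟩ <;>
    simp [eps, q1, q2, q3, q4, q5, q6] at d0 d1 d2 ⊢ <;>
    rcases hs with rfl | rfl <;> rcases n0 with n0 | n0 <;> rcases n1 with n1 | n1 <;>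
      rcases n2 with n2 | n2 <;> simp [n0, n1, n2] at d0 d1 d2 ⊢

theorem neg_one_pow_aux (k : ℕ) : ((-1 : ℤ)) ^ (k + 3) = - (-1) ^ k := by
  rw [pow_add]; norm_num

/-- the product of the signs along an alternating cycle whose inside contains `k` third edges,
`2 k + 3` being the length of the cycle -/
theorem prod_eps (e : Fin 3 → B ≃ W) (n : W → ℤ) (f g : B → Fin 3) (C : Finset B)
    (hfg : ∀ b ∈ C, f b ≠ g b)
    (hn : ∀ b j, dd e n b j =
      if b ∈ C then (if j = f b then 1 else 0) - (if j = g b then 1 else 0) else 0)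
    (s : ℤ) (hs : s = 1 ∨ s = -1) (h2 : ∀ w, n w = 0 ∨ n w = s)
    (k : ℕ) (hk : C.card = 2 * k + 3)
    (hin : (C.filter fun b => ∃ j, j ≠ f b ∧ j ≠ g b ∧ n (e (j + 1) b) ≠ 0).card = k) :
    ∏ b ∈ C, eps (g b - f b) = - s * (-1) ^ k := by
  have key : ∀ b ∈ C, eps (g b - f b) =
      if (∃ j, j ≠ f b ∧ j ≠ g b ∧ n (e (j + 1) b) ≠ 0) then s else - s := by
    intro b hb
    refine eps_aux (f b) (g b) (hfg b hb) (fun i => n (e i b)) s hs (fun i => h2 _) fun j => ?_
    have := hn b j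
    rw [if_pos hb] at this
    exact this
  rw [Finset.prod_congr rfl key, Finset.prod_ite, Finset.prod_const, Finset.prod_const, hin]
  have hout : (C.filter fun b => ¬ ∃ j, j ≠ f b ∧ j ≠ g b ∧ n (e (j + 1) b) ≠ 0).card =
      k + 3 := by
    have := Finset.card_filter_add_card_filter_not (s := C)
      (fun b => ∃ j, j ≠ f b ∧ j ≠ g b ∧ n (e (j + 1) b) ≠ 0)
    omega
  rw [hout]
  rcases hs with rfl | rfl
  · rw [one_pow, neg_one_pow_aux]; ring
  · rw [neg_neg, one_pow]; ring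

/-- **(*)** for an alternating cycle: the sign of the circulation of `u` and the product of the
signs are tied by the length of the cycle -/
theorem star (e : Fin 3 → B ≃ W) (u : B → Fin 3 → ℤ) (w0 : W)
    (hu : ∀ w, w ≠ w0 → curl e u w = -1) (n : W → ℤ) (h0 : n w0 = 0)
    (f g : B → Fin 3) (C : Finset B)
    (hfg : ∀ b ∈ C, f b ≠ g b)
    (hn : ∀ b j, dd e n b j =
      if b ∈ C then (if j = f b then 1 else 0) - (if j = g b then 1 else 0) else 0)
    (s : ℤ) (hs : s = 1 ∨ s = -1) (h2 : ∀ w, n w = 0 ∨ n w = s)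
    (k : ℕ) (hk : C.card = 2 * k + 3)
    (hin : (C.filter fun b => ∃ j, j ≠ f b ∧ j ≠ g b ∧ n (e (j + 1) b) ≠ 0).card = k) :
    Odd C.card ∧ ∏ b ∈ C, eps (g b - f b) = - s * (-1) ^ ((C.card - 3) / 2) ∧
      ∑ b ∈ C, (u b (f b) - u b (g b)) = - s * ((univ.filter fun w => n w ≠ 0).card : ℤ) ∧
      0 < (-1) ^ ((C.card - 3) / 2) * (∏ b ∈ C, eps (g b - f b)) *
        ∑ b ∈ C, (u b (f b) - u b (g b)) := by
  have hkk : (C.card - 3) / 2 = k := by omega
  have h1 := prod_eps e n f g C hfg hn s hs h2 k hk hin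
  have h3 := circ e u w0 (-1) hu n h0 f g C hn
  have h4 : ∑ w, n w = s * ((univ.filter fun w => n w ≠ 0).card : ℤ) := by
    have : ∀ w, n w = if n w ≠ 0 then s else 0 := by
      intro w
      rcases h2 w with h | h
      · simp [h]
      · by_cases h' : n w ≠ 0
        · rw [if_pos h', h]
        · rw [if_neg h']; exact not_not.1 h'
    rw [Finset.sum_congr rfl fun w _ => this w, Finset.sum_ite, Finset.sum_const,
      Finset.sum_const_zero]
    simp [mul_comm]
  have h5 : ∑ b ∈ C, (u b (f b) - u b (g b)) =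
      - s * ((univ.filter fun w => n w ≠ 0).card : ℤ) := by
    rw [h3, h4]; ring
  have hpos : 0 < ((univ.filter fun w => n w ≠ 0).card : ℤ) := by
    have hne : C.Nonempty := by
      rw [← Finset.card_pos]; omega
    obtain ⟨b, hb⟩ := hne
    have h6 := hn b (f b)
    rw [if_pos hb, if_pos rfl, if_neg (hfg b hb)] at h6
    rw [Nat.cast_pos, Finset.card_pos]
    by_contra hcon
    rw [Finset.not_nonempty_iff_eq_empty, Finset.filter_eq_empty_iff] at hcon
    have z1 := not_not.1 (hcon (Finset.mem_univ (e (f b + 1) b)))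
    have z2 := not_not.1 (hcon (Finset.mem_univ (e (f b + 2) b)))
    rw [dd, z1, z2] at h6
    norm_num at h6
  refine ⟨⟨k + 1, by omega⟩, by rw [hkk]; exact h1, h5, ?_⟩
  rw [hkk, h1, h5]
  have h7 : (-1 : ℤ) ^ k * (- s * (-1) ^ k) * (- s *
      ((univ.filter fun w => n w ≠ 0).card : ℤ)) =
      ((-1) ^ k * (-1) ^ k) * (s * s) * ((univ.filter fun w => n w ≠ 0).card : ℤ) := by ring
  rw [h7]
  have h8 : ((-1 : ℤ)) ^ k * (-1) ^ k = 1 := by
    rw [← mul_pow]; norm_num
  have h9 : s * s = 1 := by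
    rcases hs with rfl | rfl <;> norm_num
  rw [h8, h9]
  linarith

/-- the function `u` with circulation minus one -/
theorem exists_u' (e : Fin 3 → B ≃ W) (w0 : W)
    (hc : ∀ w w' : W, Relation.EqvGen (fun x y : W => ∃ b i j, e i b = x ∧ e j b = y) w w') :
    ∃ u : B → Fin 3 → ℤ, ∀ w, w ≠ w0 → curl e u w = -1 := by
  obtain ⟨u, hu⟩ := exists_u e w0 hc
  exact ⟨fun x j => - u x j, fun w hw => by rw [curl_neg, hu w hw]⟩

end Vale.Agent.P039.H34
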