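import Vale.Agent.P039.Bz.Stmt
import Vale.Agent.P039.H484.Hall2
import Vale.Agent.P039.H590.Rank

/-! STEP 5 (`PairStmt`): the Hall condition for two disjoint matchings, by the rank inequality and
the count of the edges leaving a connected set of faces. -/

namespace Vale.Agent.P039.H34P

set_option linter.unusedSectionVars false

open Vale.Agent.P039.Bn Vale.Agent.P039.Bz Finset

/-! ### pointwise identities -/

/-- number of indices -/
def nb (P : Fin 3 → Bool) : ℕ := ∑ i, (if P i then 1 else 0)

/-- number of edges with one of the two neighbouring faces in the set -/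
def eb (P : Fin 3 → Bool) : ℕ := ∑ i, (if P (i + 1) || P (i + 2) then 1 else 0)

/-- at least one -/
def hb (P : Fin 3 → Bool) : ℕ := if 1 ≤ nb P then 1 else 0

/-- exactly one -/
def ob (P : Fin 3 → Bool) : ℕ := if nb P = 1 then 1 else 0

theorem id1 : ∀ P : Fin 3 → Bool, eb P + ob P = 3 * hb P := by decide

theorem id2 : ∀ P : Fin 3 → Bool, min 2 (nb P) + ob P = 2 * hb P := by decide

theorem nb_one : ∀ (P : Fin 3 → Bool) (i : Fin 3), 1 ≤ nb P → P (i + 1) = false →
    P (i + 2) = false → nb P = 1 ∧ P i = true := by decide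

theorem nb_pos : ∀ (P : Fin 3 → Bool) (i : Fin 3), P i = true → 1 ≤ nb P := by decide

theorem nb_zero : ∀ (P : Fin 3 → Bool), ¬ 1 ≤ nb P → ∀ i, P i = false := by decide

theorem nb_ex : ∀ (P : Fin 3 → Bool), 1 ≤ nb P → ∃ i, P i = true := by decide

theorem nb_uniq : ∀ (P : Fin 3 → Bool) (i j : Fin 3), nb P = 1 → P i = true → P j = true →
    i = j := by decide

theorem ne2' (i : Fin 3) : i ≠ i + 2 := by revert i; decide

variable {B W V : Type} [Fintype B] [Fintype W] [Fintype V] [DecidableEq V]

section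

variable (M : PMap B W V) (K : Finset V)

/-- the faces of `K` at `b` -/
def pb (b : B) (j : Fin 3) : Bool := decide (M.c j b ∈ K)

/-- the faces of `K` at `w` -/
def pw (w : W) (j : Fin 3) : Bool := decide (M.cw j w ∈ K)

/-- the edges on the faces of `K` -/
def ES : Finset (Fin 3 × B) :=
  univ.filter fun p => M.c (p.1 + 1) p.2 ∈ K ∨ M.c (p.1 + 2) p.2 ∈ K

theorem card_ES_black : (ES M K).card = ∑ b, eb (pb M K b) := by
  unfold ES
  rw [card_filter, Fintype.sum_prod_type, sum_comm]
  refine sum_congr rfl fun b _ => sum_congr rfl fun i _ => ?_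
  simp [pb]

theorem card_ES_white : (ES M K).card = ∑ w, eb (pw M K w) := by
  unfold ES
  rw [card_filter, Fintype.sum_prod_type]
  unfold eb
  refine Eq.trans ?_ sum_comm
  refine sum_congr rfl fun i _ => Fintype.sum_equiv (M.e i) _ _ fun b => ?_
  have h1 := M.cw_e (i + 1) i (fne1 i).symm b
  have h2 : M.cw (i + 2) (M.e i b) = M.c (i + 2) b := M.cw_e (i + 2) i (ne2' i) b
  simp [pw, h1, h2]

/-- black vertices of the subgraph -/
def SB : Finset B := univ.filter fun b => 1 ≤ nb (pb M K b)

/-- white vertices of the subgraph -/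
def SW : Finset W := univ.filter fun w => 1 ≤ nb (pw M K w)

theorem card_SB : (SB M K).card = ∑ b, hb (pb M K b) := by
  unfold SB hb
  rw [card_filter]

theorem card_SW : (SW M K).card = ∑ w, hb (pw M K w) := by
  unfold SW hb
  rw [card_filter]

variable {M K}

theorem mem_SB {b : B} : b ∈ SB M K ↔ ∃ j, M.c j b ∈ K := by
  unfold SB
  rw [mem_filter]
  constructor
  · rintro ⟨_, h⟩
    obtain ⟨i, hi⟩ := nb_ex _ h
    exact ⟨i, of_decide_eq_true hi⟩
  · rintro ⟨j, hj⟩
    exact ⟨mem_univ _, nb_pos _ j (decide_eq_true hj)⟩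

theorem mem_SW {w : W} : w ∈ SW M K ↔ ∃ j, M.cw j w ∈ K := by
  unfold SW
  rw [mem_filter]
  constructor
  · rintro ⟨_, h⟩
    obtain ⟨i, hi⟩ := nb_ex _ h
    exact ⟨i, of_decide_eq_true hi⟩
  · rintro ⟨j, hj⟩
    exact ⟨mem_univ _, nb_pos _ j (decide_eq_true hj)⟩

variable (M K)

/-- the edges from a black vertex inside to a white vertex outside -/
noncomputable def Eb : Finset (Fin 3 × B) := by
  classical exact univ.filter fun p => p.2 ∈ SB M K ∧ M.e p.1 p.2 ∉ SW M K

/-- the edges from a black vertex outside to a white vertex inside -/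
noncomputable def Ew : Finset (Fin 3 × B) := by
  classical exact univ.filter fun p => p.2 ∉ SB M K ∧ M.e p.1 p.2 ∈ SW M K

/-- the edges outside -/
noncomputable def Eo : Finset (Fin 3 × B) := by
  classical exact univ.filter fun p => p.2 ∉ SB M K ∧ M.e p.1 p.2 ∉ SW M K

theorem card_Eb_le : (Eb M K).card ≤ ∑ b, ob (pb M K b) := by
  classical
  unfold ob
  rw [← card_filter]
  have key : ∀ p ∈ Eb M K, nb (pb M K p.2) = 1 ∧ pb M K p.2 p.1 = true := by
    intro p hp
    unfold Eb at hp
    rw [mem_filter] at hp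
    obtain ⟨_, h1, h2⟩ := hp
    rw [mem_SW] at h2
    have h3 : 1 ≤ nb (pb M K p.2) := (mem_filter.1 h1).2
    refine nb_one _ p.1 h3 ?_ ?_
    · apply decide_eq_false
      intro h
      apply h2
      refine ⟨p.1 + 1, ?_⟩
      rw [M.cw_e (p.1 + 1) p.1 (fne1 p.1).symm p.2]
      exact h
    · apply decide_eq_false
      intro h
      apply h2
      refine ⟨p.1 + 2, ?_⟩
      rw [M.cw_e (p.1 + 2) p.1 (ne2' p.1) p.2]
      exact h
  refine card_le_card_of_injOn (fun p => p.2) ?_ ?_
  · intro p hp
    simp only [coe_filter, mem_univ, true_and, Set.mem_ofPred_eq]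
    exact (key p hp).1
  · intro p hp q hq hpq
    have h1 := key p hp
    have h2 := key q hq
    have hpq' : p.2 = q.2 := hpq
    rw [← hpq'] at h2
    exact Prod.ext (nb_uniq _ _ _ h1.1 h1.2 h2.2) hpq'

theorem card_Ew_le : (Ew M K).card ≤ ∑ w, ob (pw M K w) := by
  classical
  unfold ob
  rw [← card_filter]
  have key : ∀ p ∈ Ew M K, nb (pw M K (M.e p.1 p.2)) = 1 ∧
      pw M K (M.e p.1 p.2) p.1 = true := by
    intro p hp
    unfold Ew at hp
    rw [mem_filter] at hp
    obtain ⟨_, h1, h2⟩ := hp
    rw [mem_SB] at h1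
    have h3 : 1 ≤ nb (pw M K (M.e p.1 p.2)) := (mem_filter.1 h2).2
    refine nb_one _ p.1 h3 ?_ ?_
    · apply decide_eq_false
      intro h
      apply h1
      refine ⟨p.1 + 1, ?_⟩
      rw [M.cw_e (p.1 + 1) p.1 (fne1 p.1).symm p.2] at h
      exact h
    · apply decide_eq_false
      intro h
      apply h1
      refine ⟨p.1 + 2, ?_⟩
      rw [M.cw_e (p.1 + 2) p.1 (ne2' p.1) p.2] at h
      exact h
  refine card_le_card_of_injOn (fun p => M.e p.1 p.2) ?_ ?_
  · intro p hp
    simp only [coe_filter, mem_univ, true_and, Set.mem_ofPred_eq]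
    exact (key p hp).1
  · intro p hp q hq hpq
    have h1 := key p hp
    have h2 := key q hq
    have hpq' : M.e p.1 p.2 = M.e q.1 q.2 := hpq
    rw [← hpq'] at h2
    have h3 := nb_uniq _ _ _ h1.1 h1.2 h2.2
    rw [← h3] at hpq'
    exact Prod.ext h3 ((M.e p.1).injective hpq')

theorem count_black : 3 * (Fintype.card B - (SB M K).card) = (Ew M K).card + (Eo M K).card := by
  classical
  have h1 : (Ew M K).card + (Eo M K).card =
      (univ.filter fun p : Fin 3 × B => p.2 ∉ SB M K).card := by
    unfold Ew Eo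
    rw [← filter_filter, ← filter_filter, card_filter_add_card_filter_not]
  have h2 : (univ.filter fun p : Fin 3 × B => p.2 ∉ SB M K) =
      (univ : Finset (Fin 3)) ×ˢ (SB M K)ᶜ := by
    ext p
    simp
  rw [h1, h2, card_product, card_compl]
  simp

theorem count_white : 3 * (Fintype.card W - (SW M K).card) = (Eb M K).card + (Eo M K).card := by
  classical
  have h1 : (Eb M K).card + (Eo M K).card =
      (univ.filter fun p : Fin 3 × B => M.e p.1 p.2 ∉ SW M K).card := by
    have e1 : Eb M K = (univ.filter fun p : Fin 3 × B => M.e p.1 p.2 ∉ SW M K).filter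
        fun p => p.2 ∈ SB M K := by
      unfold Eb
      ext p
      simp [and_comm]
    have e2 : Eo M K = (univ.filter fun p : Fin 3 × B => M.e p.1 p.2 ∉ SW M K).filter
        fun p => ¬ p.2 ∈ SB M K := by
      unfold Eo
      ext p
      simp [and_comm]
    rw [e1, e2, card_filter_add_card_filter_not]
  have h2 : (univ.filter fun p : Fin 3 × B => M.e p.1 p.2 ∉ SW M K).card =
      3 * (Fintype.card W - (SW M K).card) := by
    rw [card_filter, Fintype.sum_prod_type]
    have h3 : ∀ i : Fin 3, ∑ b : B, (if M.e i b ∉ SW M K then 1 else 0) =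
        (Fintype.card W - (SW M K).card) := by
      intro i
      rw [Fintype.sum_equiv (M.e i) (fun b : B => if M.e i b ∉ SW M K then 1 else 0)
        (fun w => if w ∉ SW M K then 1 else 0) (fun b => rfl), ← card_filter, ← card_compl]
      congr 1
      ext w
      simp
    rw [sum_congr rfl fun i _ => h3 i]
    simp
  rw [h1, h2]

theorem cutc_eq : cutc M (SB M K : Set B) (SW M K : Set W) = (Eb M K).card + (Ew M K).card := by
  classical
  have hd : Disjoint (Eb M K) (Ew M K) := by
    rw [disjoint_left]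
    intro p hp hq
    unfold Eb at hp
    unfold Ew at hq
    rw [mem_filter] at hp hq
    exact hq.2.1 hp.2.1
  rw [← card_union_of_disjoint hd]
  unfold cutc
  congr 1
  ext p
  unfold Eb Ew
  simp only [mem_filter, mem_union, mem_univ, true_and, mem_coe]
  tauto

/-! ### the rank inequality -/

theorem const_faces {M : PMap B W V} (hM : M.Sph) (n : V → ℚ)
    (h : ∀ e : Fin 3 × B, n (M.c (e.1 + 1) e.2) = n (M.c (e.1 + 2) e.2)) (a b : V) :
    n a = n b := by
  have h1 : ∀ (x : B) (i j : Fin 3), n (M.c i x) = n (M.c j x) := by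
    intro x i j
    have e0 := h (0, x)
    have e1 := h (1, x)
    have e2 := h (2, x)
    have hc : ∀ i : Fin 3, i = 0 ∨ i = 1 ∨ i = 2 := by decide
    have t0 : (0 : Fin 3) + 1 = 1 := by decide
    have t1 : (0 : Fin 3) + 2 = 2 := by decide
    have t2 : (1 : Fin 3) + 1 = 2 := by decide
    have t3 : (1 : Fin 3) + 2 = 0 := by decide
    have t4 : (2 : Fin 3) + 1 = 0 := by decide
    have t5 : (2 : Fin 3) + 2 = 1 := by decide
    simp only [t0, t1, t2, t3, t4, t5] at e0 e1 e2
    rcases hc i with rfl | rfl | rfl <;> rcases hc j with rfl | rfl | rfl <;> linarith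
  have h2 : ∀ x y : B, n (M.c 0 x) = n (M.c 0 y) := by
    intro x y
    have := hM.conn x y
    induction this with
    | rel x y hxy =>
      obtain ⟨j, hj⟩ := hxy
      rw [h1 x 0 j, h1 y 0 j, hj]
    | refl x => rfl
    | symm x y _ ih => exact ih.symm
    | trans x y z _ _ ih1 ih2 => exact ih1.trans ih2
  obtain ⟨i, x, rfl⟩ := M.surj a
  obtain ⟨j, y, rfl⟩ := M.surj b
  rw [h1 x i 0, h1 y j 0]
  exact h2 x y

/-- `K` is connected. -/
def KConn : Prop := ∀ K1 ⊆ K, K1.Nonempty → K1 ≠ K →
  ∃ b i j, M.c i b ∈ K1 ∧ M.c j b ∈ K ∧ M.c j b ∉ K1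

theorem const_verts (hc : KConn M K) (y : B ⊕ W → ℚ)
    (hy : ∀ p ∈ ES M K, y (Sum.inl p.2) = y (Sum.inr (M.e p.1 p.2))) :
    ∀ a ∈ (SB M K).disjSum (SW M K), ∀ b ∈ (SB M K).disjSum (SW M K), y a = y b := by
  classical
  -- the value at a face
  have h1 : ∀ (j : Fin 3) (b b' : B), M.c j b ∈ K → M.c j b = M.c j b' →
      y (Sum.inl b) = y (Sum.inl b') := by
    intro j b b' hb hbb
    have := M.exact j b b' hbb
    have key : ∀ x x', Relation.EqvGen (fun x y => M.e (j + 1) y = M.e (j + 2) x) x x' →
        M.c j x = M.c j x' ∧ (M.c j x ∈ K → y (Sum.inl x) = y (Sum.inl x')) := by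
      intro x x' hx
      induction hx with
      | rel x x' hx =>
        have hs := (M.step j x x' hx).symm
        refine ⟨hs, fun hK => ?_⟩
        have a1 := hy (j + 2, x) (by
          unfold ES
          rw [mem_filter]
          refine ⟨mem_univ _, Or.inl ?_⟩
          rw [f21]
          exact hK)
        have a2 := hy (j + 1, x') (by
          unfold ES
          rw [mem_filter]
          refine ⟨mem_univ _, Or.inr ?_⟩
          rw [f12, ← hs]
          exact hK)
        rw [a1, a2]
        simp only [hx]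
      | refl x => exact ⟨rfl, fun _ => rfl⟩
      | symm x x' _ ih => exact ⟨ih.1.symm, fun hK => (ih.2 (by rw [ih.1]; exact hK)).symm⟩
      | trans x x' x'' _ _ ih1 ih2 =>
        exact ⟨ih1.1.trans ih2.1, fun hK => (ih1.2 hK).trans (ih2.2 (by rw [← ih1.1]; exact hK))⟩
    exact (key b b' this).2 hb
  have h1' : ∀ (i j : Fin 3) (b b' : B), M.c i b ∈ K → M.c i b = M.c j b' →
      y (Sum.inl b) = y (Sum.inl b') := by
    intro i j b b' hb hbb
    obtain rfl := M.cls i j b b' hbb
    exact h1 i b b' hb hbb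
  have h2 : ∀ b b' : B, b ∈ SB M K → b' ∈ SB M K → y (Sum.inl b) = y (Sum.inl b') := by
    intro b b' hb hb'
    obtain ⟨i, hi⟩ := mem_SB.1 hb
    obtain ⟨i', hi'⟩ := mem_SB.1 hb'
    let K1 : Finset V := K.filter fun v => ∀ j x, M.c j x = v → y (Sum.inl x) = y (Sum.inl b)
    have hK1 : K1 = K := by
      by_contra hne
      obtain ⟨x, k, l, hk, hl, hl'⟩ := hc K1 (filter_subset _ _)
        ⟨M.c i b, mem_filter.2 ⟨hi, fun j x hx => h1' j i x b (by rw [hx]; exact hi) hx⟩⟩ hne
      apply hl'
      refine mem_filter.2 ⟨hl, fun j z hz => ?_⟩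
      rw [h1' j l z x (by rw [hz]; exact hl) hz]
      exact (mem_filter.1 hk).2 k x rfl
    have h3 : M.c i' b' ∈ K1 := by rw [hK1]; exact hi'
    exact ((mem_filter.1 h3).2 i' b' rfl).symm
  have h3 : ∀ w ∈ SW M K, ∃ b ∈ SB M K, y (Sum.inr w) = y (Sum.inl b) := by
    intro w hw
    obtain ⟨j, hj⟩ := mem_SW.1 hw
    refine ⟨(M.e (j + 1)).symm w, mem_SB.2 ⟨j, hj⟩, ?_⟩
    have a1 := hy (j + 1, (M.e (j + 1)).symm w) (by
      unfold ES
      rw [mem_filter]
      refine ⟨mem_univ _, Or.inr ?_⟩
      rw [f12]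
      exact hj)
    simpa using a1.symm
  have h4 : ∀ a ∈ (SB M K).disjSum (SW M K), ∃ b ∈ SB M K, y a = y (Sum.inl b) := by
    intro a ha
    rw [mem_disjSum] at ha
    rcases ha with ⟨b, hb, rfl⟩ | ⟨w, hw, rfl⟩
    · exact ⟨b, hb, rfl⟩
    · exact h3 w hw
  intro a ha b hb
  obtain ⟨x, hx, ex⟩ := h4 a ha
  obtain ⟨z, hz, ez⟩ := h4 b hb
  rw [ex, ez]
  exact h2 x z hx hz

theorem rank {M : PMap B W V} {K : Finset V} (hM : M.Sph) (hc : KConn M K) (hne : ∃ v, v ∉ K) :
    K.card + ((SB M K).card + (SW M K).card) ≤ (ES M K).card + 1 := by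
  classical
  have := H590.rank_ineq (E := Fin 3 × B) (X := B ⊕ W) (Fa := V)
    (fun p => Sum.inl p.2) (fun p => Sum.inr (M.e p.1 p.2))
    (fun p => M.c (p.1 + 1) p.2) (fun p => M.c (p.1 + 2) p.2) (by
      intro n x
      have t0 : (0 : Fin 3) + 1 = 1 := by decide
      have t1 : (0 : Fin 3) + 2 = 2 := by decide
      have t2 : (1 : Fin 3) + 1 = 2 := by decide
      have t3 : (1 : Fin 3) + 2 = 0 := by decide
      have t4 : (2 : Fin 3) + 1 = 0 := by decide
      have t5 : (2 : Fin 3) + 2 = 1 := by decide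
      rcases x with b | w
      · rw [sum_filter, sum_filter, Fintype.sum_prod_type, Fintype.sum_prod_type]
        have z1 : ∀ i : Fin 3, ∑ x : B, (if (Sum.inl x : B ⊕ W) = Sum.inl b then
            n (M.c (i + 1) x) - n (M.c (i + 2) x) else 0) =
            n (M.c (i + 1) b) - n (M.c (i + 2) b) := by
          intro i
          simp only [Sum.inl.injEq]
          rw [sum_ite_eq' univ b, if_pos (mem_univ _)]
        have z2 : ∀ i : Fin 3, ∑ x : B, (if (Sum.inr (M.e i x) : B ⊕ W) = Sum.inl b then
            n (M.c (i + 1) x) - n (M.c (i + 2) x) else 0) = 0 := by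
          intro i
          simp
        rw [sum_congr rfl fun i _ => z1 i, sum_congr rfl fun i _ => z2 i]
        simp only [Fin.sum_univ_three, t0, t1, t2, t3, t4, t5]
        ring
      · rw [sum_filter, sum_filter, Fintype.sum_prod_type, Fintype.sum_prod_type]
        have z1 : ∀ i : Fin 3, ∑ x : B, (if (Sum.inl x : B ⊕ W) = Sum.inr w then
            n (M.c (i + 1) x) - n (M.c (i + 2) x) else 0) = 0 := by
          intro i
          simp
        have z2 : ∀ i : Fin 3, ∑ x : B, (if (Sum.inr (M.e i x) : B ⊕ W) = Sum.inr w then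
            n (M.c (i + 1) x) - n (M.c (i + 2) x) else 0) =
            n (M.cw (i + 1) w) - n (M.cw (i + 2) w) := by
          intro i
          rw [sum_eq_single ((M.e i).symm w)]
          · rw [if_pos (by simp), M.cw_symm (i + 1) i (fne1 i).symm,
              M.cw_symm (i + 2) i (ne2' i)]
          · intro x _ hx
            rw [if_neg]
            intro h
            apply hx
            rw [← Sum.inr.inj h, Equiv.symm_apply_apply]
          · intro h
            exact absurd (mem_univ _) h
        rw [sum_congr rfl fun i _ => z1 i, sum_congr rfl fun i _ => z2 i]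
        simp only [Fin.sum_univ_three, t0, t1, t2, t3, t4, t5]
        ring)
    (fun n hn => const_faces hM n hn) (ES M K) ((SB M K).disjSum (SW M K)) K
    (by
      intro p hp
      unfold ES
      rw [mem_filter]
      exact ⟨mem_univ _, hp⟩)
    (by
      intro y hy
      exact const_verts M K hc y (fun p hp => hy p hp))
    hne
  rw [card_disjSum] at this
  exact this

/-! ### the Hall inequality -/

theorem hall_conn {M : PMap B W V} {K : Finset V} (hM : M.Sph) (h3 : C3 M) (h4 : C4 M)
    (hc : KConn M K) (hne : K.Nonempty) (b₀ : B) (hK0 : ∀ j, M.c j b₀ ∉ K) :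
    2 * K.card ≤ ∑ b, min 2 (nb (pb M K b)) := by
  classical
  have hb0 : b₀ ∉ SB M K := fun h => by
    obtain ⟨j, hj⟩ := mem_SB.1 h
    exact hK0 j hj
  obtain ⟨v, hv⟩ := hne
  obtain ⟨j, b, hjb⟩ := M.surj v
  have hbS : b ∈ SB M K := mem_SB.2 ⟨j, by rw [hjb]; exact hv⟩
  have hwS : M.e (j + 1) b ∈ SW M K := mem_SW.2 ⟨j, by rw [M.cw_e1, hjb]; exact hv⟩
  have hr := rank hM hc ⟨_, hK0 0⟩
  have e1 : ∑ b, eb (pb M K b) + ∑ b, ob (pb M K b) = 3 * ∑ b, hb (pb M K b) := by
    rw [← sum_add_distrib, mul_sum]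
    exact sum_congr rfl fun b _ => id1 _
  have e2 : ∑ w, eb (pw M K w) + ∑ w, ob (pw M K w) = 3 * ∑ w, hb (pw M K w) := by
    rw [← sum_add_distrib, mul_sum]
    exact sum_congr rfl fun b _ => id1 _
  have e3 : ∑ b, min 2 (nb (pb M K b)) + ∑ b, ob (pb M K b) = 2 * ∑ b, hb (pb M K b) := by
    rw [← sum_add_distrib, mul_sum]
    exact sum_congr rfl fun b _ => id2 _
  have e4 := card_ES_black M K
  have e5 := card_ES_white M K
  have e6 := card_SB M K
  have e7 := card_SW M K
  have e8 := card_Eb_le M K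
  have e9 := card_Ew_le M K
  have c1 := count_black M K
  have c2 := count_white M K
  have c3 := cutc_eq M K
  have hBW : Fintype.card B = Fintype.card W := Fintype.card_congr (M.e 0)
  have d1 : 3 ≤ cutc M (SB M K : Set B) (SW M K : Set W) :=
    h3 _ _ (Or.inl ⟨b, hbS⟩) (Or.inl ⟨b₀, fun h => hb0 h⟩)
  have hsb : (SB M K).card < Fintype.card B := by
    rw [← card_univ]
    exact card_lt_card (ssubset_univ_iff.2 fun h => hb0 (by rw [h]; exact mem_univ _))
  have hsw : (SW M K).card ≤ Fintype.card W := card_le_univ _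
  have hsb1 : 0 < (SB M K).card := card_pos.2 ⟨b, hbS⟩
  have hsw1 : 0 < (SW M K).card := card_pos.2 ⟨_, hwS⟩
  have d2 : cutc M (SB M K : Set B) (SW M K : Set W) = 3 →
      Fintype.card B - (SB M K).card + (Fintype.card W - (SW M K).card) ≤ 1 := by
    intro h
    rcases h4 _ _ h with h5 | h5
    · rw [Set.ncard_coe_finset, Set.ncard_coe_finset] at h5
      omega
    · rw [← coe_compl, ← coe_compl, Set.ncard_coe_finset, Set.ncard_coe_finset, card_compl,
        card_compl] at h5
      exact h5
  rw [c3] at d1 d2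
  have six : 6 ≤ (Eb M K).card + 2 * (Ew M K).card := by
    by_cases h : (Eb M K).card + (Ew M K).card = 3
    · have := d2 h
      omega
    · omega
  omega

end

theorem hall {M : PMap B W V} (hM : M.Sph) (h3 : C3 M) (h4 : C4 M) (b₀ : B) (K : Finset V)
    (hb : ∀ j, M.c j b₀ ∉ K) : 2 * K.card ≤ ∑ b, min 2 (nb (pb M K b)) := by
  classical
  induction hn : K.card using Nat.strong_induction_on generalizing K with
  | _ n ih =>
    subst hn
    rcases K.eq_empty_or_nonempty with rfl | hne
    · simp
    by_cases hc : KConn M K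
    · exact hall_conn hM h3 h4 hc hne b₀ hb
    unfold KConn at hc
    push Not at hc
    obtain ⟨K1, hK1, hne1, hK1', hcl⟩ := hc
    have hlt1 : K1.card < K.card := card_lt_card (hK1.ssubset_of_ne hK1')
    have hne2 : 0 < K1.card := card_pos.2 hne1
    have hsum : (K \ K1).card + K1.card = K.card := card_sdiff_add_card_eq_card hK1
    have i1 := ih K1.card hlt1 K1 (fun j hj => hb j (hK1 hj)) rfl
    have i2 := ih (K \ K1).card (by omega) (K \ K1) (fun j hj => hb j (mem_sdiff.1 hj).1) rfl
    have hp : ∀ b, min 2 (nb (pb M K1 b)) + min 2 (nb (pb M (K \ K1) b)) ≤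
        min 2 (nb (pb M K b)) := by
      intro b
      by_cases hx : ∃ i, M.c i b ∈ K1
      · obtain ⟨i, hi⟩ := hx
        have z : pb M (K \ K1) b = fun _ => false := by
          funext j
          apply decide_eq_false
          intro hj
          exact (mem_sdiff.1 hj).2 (hcl b i j hi (mem_sdiff.1 hj).1)
        have z' : pb M K1 b = pb M K b := by
          funext j
          unfold pb
          congr 1
          exact propext ⟨fun h => hK1 h, fun h => hcl b i j hi h⟩
        rw [z, z']
        simp [nb]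
      · have z : pb M K1 b = fun _ => false := by
          funext j
          apply decide_eq_false
          intro hj
          exact hx ⟨j, hj⟩
        have z' : pb M (K \ K1) b = pb M K b := by
          funext j
          unfold pb
          congr 1
          exact propext ⟨fun h => (mem_sdiff.1 h).1, fun h => mem_sdiff.2 ⟨h, fun h' => hx ⟨j, h'⟩⟩⟩
        rw [z, z']
        simp [nb]
    have := sum_le_sum fun b (_ : b ∈ (univ : Finset B)) => hp b
    rw [sum_add_distrib] at this
    omega

end Vale.Agent.P039.H34P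

namespace Vale.Agent.P039.H34

open Vale.Agent.P039.Bn Vale.Agent.P039.Bz Vale.Agent.P039.H34P Finset

/-- **STEP 5.** -/
theorem pairStmt : PairStmt := by
  intro B W V _ _ _ M hM h3 h4 b₀
  classical
  have hinj : Function.Injective fun j : Fin 3 => M.c j b₀ := fun i j h => M.cls i j b₀ b₀ h
  have hcard : Fintype.card (BOff b₀) = Fintype.card (VOff M b₀) := by
    have h1 : Fintype.card (BOff b₀) = Fintype.card B - 1 := by
      rw [Fintype.card_subtype, filter_ne', card_erase_of_mem (mem_univ _), card_univ]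
    have h2 : Fintype.card (VOff M b₀) = Fintype.card V - 3 := by
      rw [Fintype.card_subtype]
      have : (univ.filter fun v : V => ∀ j, M.c j b₀ ≠ v) =
          (univ.image fun j : Fin 3 => M.c j b₀)ᶜ := by
        ext v
        simp
      rw [this, card_compl, card_image_of_injective _ hinj]
      simp
    have h5 := hM.card
    omega
  obtain ⟨f, g, e, e', hfg, hf, hg⟩ := H484.two_matchings_option (Fo M b₀) hcard (by
    intro K
    let K' : Finset V := K.map (Function.Embedding.subtype _)
    have hb : ∀ j, M.c j b₀ ∉ K' := by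
      intro j hj
      obtain ⟨v, hv, hv'⟩ := mem_map.1 hj
      exact v.2 j hv'.symm
    have hK := hall hM h3 h4 b₀ K' hb
    have h1 : K'.card = K.card := card_map _
    rw [h1] at hK
    refine hK.trans ?_
    have h0 : min 2 (nb (pb M K' b₀)) = 0 := by
      have : pb M K' b₀ = fun _ => false := by
        funext j
        exact decide_eq_false (hb j)
      rw [this]
      simp [nb]
    have h2 : ∑ b : B, min 2 (nb (pb M K' b)) = ∑ b : BOff b₀, min 2 (nb (pb M K' b.1)) := by
      rw [← sum_subtype (univ.filter fun b : B => b ≠ b₀) (by simp)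
        (fun b => min 2 (nb (pb M K' b))), sum_filter]
      refine sum_congr rfl fun b _ => ?_
      by_cases hbb : b = b₀
      · rw [if_neg (by simpa using hbb), hbb, h0]
      · rw [if_pos hbb]
    rw [h2]
    refine le_of_eq (sum_congr rfl fun b _ => ?_)
    congr 1
    unfold nb
    rw [← card_filter]
    congr 1
    ext c
    simp only [mem_filter, mem_univ, true_and, pb, decide_eq_true_eq]
    constructor
    · intro h
      obtain ⟨v, hv, hv'⟩ := mem_map.1 h
      have hv2 : v.1 = M.c c b.1 := hv'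
      refine ⟨v, hv, ?_⟩
      unfold Fo
      rw [dif_pos (fun i => by rw [← hv2]; exact v.2 i)]
      exact congrArg some (Subtype.ext hv2.symm)
    · rintro ⟨v, hv, hv'⟩
      unfold Fo at hv'
      split_ifs at hv' with hh
      have := Option.some.inj hv'
      refine mem_map.2 ⟨v, hv, ?_⟩
      rw [← this]
      rfl)
  exact ⟨f, g, ⟨e, hf⟩, ⟨e', hg⟩, hfg⟩

end Vale.Agent.P039.H34
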